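import Vale.Agent.P335.Curveball
import Vale.Agent.P335.Switch
import Vale.Agent.P335.Chain

/-!
# P335: the Kannan-Tetali-Vempala conjecture for simple graphs

The switch chain mixes in `12 n^6` steps for every degree vector. The proof shows that the sum `L`
over all vertex pairs of the resampling projections satisfies `L^2 ≥ L` (three-row lemma for
overlapping pairs; for disjoint pairs the shared switch pays for the defect), and bounds each
resampling by switches.
-/

open Finset
open scoped Classical

namespace Vale.Agent.Results.P335.SwitchChainRapid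

open Vale.Agent.P335

theorem result : ∀ n : ℕ, 4 ≤ n → ∀ d : Fin n → ℕ, ∀ t : ℕ, 12 * n ^ 6 ≤ t →
    ∀ G ∈ realisations d, tvToUniform d G t ≤ 1 / 4 := by
  intro n hn d t ht
  refine rapid_of_poincare hn d 1 le_rfl (fun f => ?_) t (by simpa using ht)
  have h := (curveball_poincare fun G : Rz d => f G.1).trans (pairs_le_switches f)
  have e : ∑ G ∈ realisations d,
      (f G - (∑ H ∈ realisations d, f H) / (#(realisations d) : ℝ)) ^ 2 =
      tvar fun G : Rz d => f G.1 := by
    have hfib : ∀ A : Rz d, fib (fun _ : Rz d => ()) A = univ := fun A => by simp [fib]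
    simp only [tvar, cvar, cavg, hfib, card_univ, Fintype.card_coe]
    rw [← sum_coe_sort (realisations d), ← sum_coe_sort (realisations d) f]
  rw [e, Nat.cast_one, one_mul]
  refine h.trans ?_
  have : (0 : ℝ) ≤ ∑ τ : Fin 4 ↪ Fin n, ∑ G ∈ realisations d, (f (switchMap τ G) - f G) ^ 2 :=
    sum_nonneg fun _ _ => sum_nonneg fun _ _ => sq_nonneg _
  linarith

end Vale.Agent.Results.P335.SwitchChainRapid
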